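import Vale.Agent.P236Xd.Z11g0
import Vale.Agent.P236Xd.Z11g1
import Vale.Agent.P236Xd.L11

/-!
# P236 : data
-/

set_option maxRecDepth 100000

noncomputable section

namespace Vale.Agent.P236X

noncomputable def Zs11 : List Zc := [Z11g0, Z11g1]

end Vale.Agent.P236X
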