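import Vale.Agent.P236Xd.Z2g0
import Vale.Agent.P236Xd.Z2g1
import Vale.Agent.P236Xd.Z2g2
import Vale.Agent.P236Xd.Z2g3
import Vale.Agent.P236Xd.Z2g4
import Vale.Agent.P236Xd.Z2g5
import Vale.Agent.P236Xd.Z2g6
import Vale.Agent.P236Xd.Z2g7
import Vale.Agent.P236Xd.Z2g8
import Vale.Agent.P236Xd.Z2g9
import Vale.Agent.P236Xd.Z2g10
import Vale.Agent.P236Xd.Z2g11
import Vale.Agent.P236Xd.Z2g12
import Vale.Agent.P236Xd.Z2g13
import Vale.Agent.P236Xd.Z2g14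
import Vale.Agent.P236Xd.Z2g15
import Vale.Agent.P236Xd.Z2g16
import Vale.Agent.P236Xd.Z2g17
import Vale.Agent.P236Xd.Z2g18
import Vale.Agent.P236Xd.Z2g19
import Vale.Agent.P236Xd.Z2g20
import Vale.Agent.P236Xd.L2

/-!
# P236 : data
-/

set_option maxRecDepth 100000

noncomputable section

namespace Vale.Agent.P236X

noncomputable def Zs2 : List Zc := [Z2g0, Z2g1, Z2g2, Z2g3, Z2g4, Z2g5, Z2g6, Z2g7, Z2g8, Z2g9, Z2g10, Z2g11, Z2g12, Z2g13, Z2g14, Z2g15, Z2g16, Z2g17, Z2g18, Z2g19, Z2g20]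

end Vale.Agent.P236X
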