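import Vale.Agent.P236Xd.Z3g0
import Vale.Agent.P236Xd.Z3g1
import Vale.Agent.P236Xd.Z3g2
import Vale.Agent.P236Xd.Z3g3
import Vale.Agent.P236Xd.Z3g4
import Vale.Agent.P236Xd.Z3g5
import Vale.Agent.P236Xd.Z3g6
import Vale.Agent.P236Xd.Z3g7
import Vale.Agent.P236Xd.Z3g8
import Vale.Agent.P236Xd.Z3g9
import Vale.Agent.P236Xd.L3

/-!
# P236 : data
-/

set_option maxRecDepth 100000

noncomputable section

namespace Vale.Agent.P236X

noncomputable def Zs3 : List Zc := [Z3g0, Z3g1, Z3g2, Z3g3, Z3g4, Z3g5, Z3g6, Z3g7, Z3g8, Z3g9]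

end Vale.Agent.P236X
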