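import Vale.Agent.P236Xd.Z4g0
import Vale.Agent.P236Xd.Z4g1
import Vale.Agent.P236Xd.Z4g2
import Vale.Agent.P236Xd.Z4g3
import Vale.Agent.P236Xd.Z4g4
import Vale.Agent.P236Xd.Z4g5
import Vale.Agent.P236Xd.Z4g6
import Vale.Agent.P236Xd.Z4g7
import Vale.Agent.P236Xd.Z4g8
import Vale.Agent.P236Xd.L4

/-!
# P236 : data
-/

set_option maxRecDepth 100000

noncomputable section

namespace Vale.Agent.P236X

noncomputable def Zs4 : List Zc := [Z4g0, Z4g1, Z4g2, Z4g3, Z4g4, Z4g5, Z4g6, Z4g7, Z4g8]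

end Vale.Agent.P236X
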