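import Vale.Agent.P236Xd.Z5g0
import Vale.Agent.P236Xd.Z5g1
import Vale.Agent.P236Xd.Z5g2
import Vale.Agent.P236Xd.Z5g3
import Vale.Agent.P236Xd.Z5g4
import Vale.Agent.P236Xd.Z5g5
import Vale.Agent.P236Xd.L5

/-!
# P236 : data
-/

set_option maxRecDepth 100000

noncomputable section

namespace Vale.Agent.P236X

noncomputable def Zs5 : List Zc := [Z5g0, Z5g1, Z5g2, Z5g3, Z5g4, Z5g5]

end Vale.Agent.P236X
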