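import Vale.Agent.P236Xd.Z7g0
import Vale.Agent.P236Xd.Z7g1
import Vale.Agent.P236Xd.Z7g2
import Vale.Agent.P236Xd.Z7g3
import Vale.Agent.P236Xd.L7

/-!
# P236 : data
-/

set_option maxRecDepth 100000

noncomputable section

namespace Vale.Agent.P236X

noncomputable def Zs7 : List Zc := [Z7g0, Z7g1, Z7g2, Z7g3]

end Vale.Agent.P236X
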