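import Vale.Agent.P236X.Def3
import Vale.Agent.P236Xd.L0

/-!
# P236 : data
-/

noncomputable section

namespace Vale.Agent.P236X

noncomputable def Zs0 : List Zc := []

end Vale.Agent.P236X
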